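import Vale.Agent.P235.K5.H266.MixCore
import Vale.Agent.P235.K5.H12.Red
import Vale.Agent.P235.K5.H803.Split

set_option autoImplicit false
set_option linter.all false

/-!
# The pieces of a connected clique sum are connected; pieces without a `K_5` minor (helper266)
-/

namespace Vale.Agent.P235.K5.H266

open SimpleGraph hiding Free
open Vale.Agent.P235 Vale.Agent.P235.K5 Vale.Agent.P235.H134 Vale.Agent.P235.H56
open Vale.Agent.P235.K5.H281
open Vale.Agent.P235.H341W (capG)

variable {k : ℕ} {P Q : ∀ V : Type, SimpleGraph V → Set V → Prop} {V : Type}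

/-- a side of a clique cut of a connected set is connected -/
theorem side_conn {H : SimpleGraph V} {X Y : Set V}
    (hSc : ∀ u ∈ X, u ∈ Y → ∀ v ∈ X, v ∈ Y → u ≠ v → H.Adj u v)
    (hno : ∀ u ∈ X, u ∉ Y → ∀ v ∈ Y, v ∉ X → ¬ H.Adj u v)
    (h : (H.induce (X ∪ Y)).Preconnected) : (H.induce X).Preconnected := by
  rw [H803.preconn_iff] at h ⊢
  intro P hPX hne hcl
  by_cases hs : ∃ s ∈ P, s ∈ Y
  · obtain ⟨s, hsP, hsY⟩ := hs
    have hSP : ∀ v ∈ X, v ∈ Y → v ∈ P := by
      intro v hvX hvY
      by_cases hsv : s = v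
      · exact hsv ▸ hsP
      · exact hcl s hsP v hvX (hSc s (hPX hsP) hsY v hvX hvY hsv)
    have h1 := h (P ∪ Y) (Set.union_subset_union_left _ hPX) (hne.mono Set.subset_union_left) (by
      intro u hu v hv huv
      by_cases hvY : v ∈ Y
      · exact Or.inr hvY
      · have hvX : v ∈ X := hv.resolve_right hvY
        left
        rcases hu with hu | hu
        · exact hcl u hu v hvX huv
        · by_cases huX : u ∈ X
          · exact hcl u (hSP u huX hu) v hvX huv
          · exact absurd huv.symm (hno v hvX hvY u hu huX))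
    refine hPX.antisymm fun v hv => ?_
    have h2 : v ∈ P ∪ Y := by
      rw [h1]
      exact Or.inl hv
    rcases h2 with h2 | h2
    · exact h2
    · exact hSP v hv h2
  · push Not at hs
    have h1 := h P (hPX.trans Set.subset_union_left) hne (by
      intro u hu v hv huv
      by_cases hvX : v ∈ X
      · exact hcl u hu v hvX huv
      · exact absurd huv (hno u (hPX hu) (hs u hu) v (hv.resolve_left hvX) hvX))
    refine hPX.antisymm fun v hv => ?_
    rw [h1]
    exact Or.inl hv

/-- **the bags of a connected clique sum are connected** -/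
theorem bag_conn {H : SimpleGraph V} {n : ℕ} {B : ℕ → Set V} (h : Glued k H n B)
    (hH : H.Preconnected) : ∀ t < n, (H.induce (B t)).Preconnected := by
  have hun : ∀ m, Bef B (m + 1) = Bef B m ∪ B m := by
    intro m
    ext v
    constructor
    · rintro ⟨s, hs, hv⟩
      by_cases h : s = m
      · right
        rwa [h] at hv
      · left
        exact ⟨s, by omega, hv⟩
    · rintro (⟨s, hs, hv⟩ | hv)
      · exact ⟨s, by omega, hv⟩
      · exact ⟨m, by omega, hv⟩
  have h1 : ∀ m < n, (H.induce (Bef B (m + 1))).Preconnected →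
      (H.induce (Bef B m)).Preconnected ∧ (H.induce (B m)).Preconnected := by
    intro m hm hp
    rw [hun] at hp
    have hSc : ∀ u ∈ Bef B m, u ∈ B m → ∀ v ∈ Bef B m, v ∈ B m → u ≠ v → H.Adj u v :=
      fun u hu hu' v hv hv' huv => h.clique m hm u ⟨hu', hu⟩ v ⟨hv', hv⟩ huv
    refine ⟨side_conn hSc (fun u hu hu' v hv hv' huv => ?_) hp,
      side_conn (fun u hu hu' v hv hv' huv => hSc u hu' hu v hv' hv huv)
        (fun u hu hu' v hv hv' huv => ?_) (by rwa [Set.union_comm])⟩
    · exact h.sep m hm v u hv hv' hu hu' huv.symm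
    · exact h.sep m hm u v hu hu' hv hv' huv
  have h2 : ∀ j, j ≤ n → (H.induce (Bef B (n - j))).Preconnected := by
    intro j
    induction j with
    | zero =>
      intro _
      have h3 : Bef B (n - 0) = Set.univ := by
        ext v
        refine ⟨fun _ => trivial, fun _ => ?_⟩
        obtain ⟨s, hs, hv⟩ := h.cover v
        exact ⟨s, hs, hv⟩
      rw [h3, H803.preconn_iff]
      intro P _ hne hcl
      refine Set.eq_univ_of_forall fun v => ?_
      obtain ⟨p, hp⟩ := hne
      obtain ⟨w⟩ := hH p v
      have key : ∀ (a b : V) (w : H.Walk a b), a ∈ P → b ∈ P := by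
        intro a b w
        induction w with
        | nil => exact id
        | cons hab _ ih => exact fun ha => ih (hcl _ ha _ trivial hab)
      exact key _ _ w hp
    | succ j ih =>
      intro hj
      have h3 := ih (by omega)
      have h4 : n - j = (n - (j + 1)) + 1 := by omega
      rw [h4] at h3
      exact (h1 _ (by omega) h3).1
  intro t ht
  have h3 := h2 (n - (t + 1)) (by omega)
  have h4 : n - (n - (t + 1)) = t + 1 := by omega
  rw [h4] at h3
  exact (h1 t ht h3).2

/-- **[LAST-K5]** In a connected clique sum over at most three vertices the pieces without a `K_5`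
minor may be replaced; the other pieces may be assumed to be connected. -/
theorem k5_glued (hW : WIn) [Finite V] {H : SimpleGraph V} (hH : H.Connected) {n : ℕ}
    {B : ℕ → Set V} (h : Glued 3 H n B)
    (hQ : ∀ (B : Set V) (K : SimpleGraph B) (T : Set B), PW B K T → Q B K T)
    (hp : ∀ t < n, ((H.induce (B t)).Connected →
      Q (B t) (H.induce (B t)) {x | (x : V) ∈ Adh B t}) ∨
        ¬ IsMinor (⊤ : SimpleGraph (Fin 5)) (H.induce (B t))) :
    ∃ H' : SimpleGraph V, H ≤ H' ∧ CliqueSum 3 Q H' := by
  have := hH.nonempty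
  obtain ⟨m, C, g, hnew, hC⟩ := Glued.reduce n B h
  refine refine_sum g fun t ht => ?_
  have hsub : Adh C t ⊆ C t := fun v hv => hv.1
  obtain ⟨v, hv, _⟩ := hnew t ht
  have hne : Nonempty (C t) := ⟨⟨v, hv⟩⟩
  have hcon : (H.induce (C t)).Connected := ⟨bag_conn g hH.preconnected t ht⟩
  obtain ⟨s, hs, e1, e2⟩ := hC t ht
  have hp' : Q (C t) (H.induce (C t)) {x | (x : V) ∈ Adh C t} ∨
      ¬ IsMinor (⊤ : SimpleGraph (Fin 5)) (H.induce (C t)) := by
    have h1 := hp s hs
    rw [← e2, ← e1] at h1
    exact h1.imp_left fun h => h hcon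
  rcases hp' with h1 | h1
  · exact RootedOn.single hsub h1
  · refine rooted_imp (P := PW) (RootedOn.of_induce isoInv hsub (rooted_of hW _ (C t)
      (H.induce (C t)) {x | (x : V) ∈ Adh C t} (Nat.lt_succ_self _) hcon h1 ?_ ?_)) hQ
    · intro u hu v hv huv
      exact g.clique t ht u hu v hv fun e => huv (Subtype.ext e)
    · exact (H281.ncard_sub (C t) (Adh C t)).trans (g.card t ht)

end Vale.Agent.P235.K5.H266
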