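import Vale.Agent.P235.K5.H266.Last

set_option autoImplicit false
set_option linter.all false

/-!
# The pieces of a connected clique sum may be assumed to be connected (helper266)
-/

namespace Vale.Agent.P235.K5.H266

open SimpleGraph hiding Free
open Vale.Agent.P235 Vale.Agent.P235.K5 Vale.Agent.P235.K5.H281

/-- No connectedness has to be asked of the pieces of a sum above a connected graph. -/
theorem cliqueSum_conn {k : ℕ} {P : ∀ V : Type, SimpleGraph V → Set V → Prop} {V : Type}
    {H : SimpleGraph V} (hH : H.Preconnected) (h : CliqueSum k P H) :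
    CliqueSum k (fun V G R => G.Connected ∧ P V G R) H := by
  obtain ⟨n, B, g, hnew, hP⟩ := h.reduce
  refine ⟨n, B, g, fun t ht => ⟨?_, hP t ht⟩⟩
  obtain ⟨v, hv, _⟩ := hnew t ht
  have hne : Nonempty (B t) := ⟨⟨v, hv⟩⟩
  exact ⟨bag_conn g hH t ht⟩

end Vale.Agent.P235.K5.H266
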