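import Vale.Agent.P235.K5.H281.Fin
import Vale.Agent.P235.K5.H439.Small
import Vale.Agent.P235.ST.H626.Sums

set_option autoImplicit false
set_option linter.all false

/-!
# Mixed sums over at most three vertices (helper266)

In a clique sum every piece may be replaced by a rooted clique sum; so connected pieces without a
`K_5` minor may be glued on along any triangles.
-/

namespace Vale.Agent.P235.K5.H266

open SimpleGraph hiding Free
open Vale.Agent.P235 Vale.Agent.P235.K5 Vale.Agent.P235.H134 Vale.Agent.P235.H56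
open Vale.Agent.P235.K5.H281
open Vale.Agent.P235.H341W (capG)

variable {k : ℕ} {P Q : ∀ V : Type, SimpleGraph V → Set V → Prop} {V : Type}

/-- change of the class of pieces -/
theorem rooted_imp {G : SimpleGraph V} {W R : Set V} (h : RootedOn k P G W R)
    (hPQ : ∀ (B : Set V) (K : SimpleGraph B) (T : Set B), P B K T → Q B K T) :
    RootedOn k Q G W R := by
  obtain ⟨H, n, B, h⟩ := h
  exact ⟨H, n, B, ⟨h.le, h.pos, h.sub, h.cover, h.card, h.clique, h.sep, h.root,
    hPQ _ _ _ h.piece0, fun t a b => hPQ _ _ _ (h.piece t a b)⟩⟩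

/-- the pieces of a sum are replaced by rooted sums -/
theorem bef_rooted {H : SimpleGraph V} {n : ℕ} {B : ℕ → Set V} (h : Glued k H n B)
    (hp : ∀ t < n, RootedOn k P H (B t) (Adh B t)) :
    ∀ m, m < n → RootedOn k P H (Bef B (m + 1)) ∅ := by
  intro m
  induction m with
  | zero =>
    intro h0
    have h1 : Bef B (0 + 1) = B 0 := by
      ext v
      constructor
      · rintro ⟨s, hs, hv⟩
        have : s = 0 := by omega
        rwa [this] at hv
      · intro hv
        exact ⟨0, by omega, hv⟩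
    have h2 : Adh B 0 = ∅ := by
      ext v
      constructor
      · rintro ⟨_, s, hs, _⟩; omega
      · intro hv; exact hv.elim
    have h3 := hp 0 h0
    rw [h2] at h3
    rwa [h1]
  | succ m ih =>
    intro hm
    have h1 := ih (by omega)
    have h2 := hp (m + 1) hm
    have h3 : Bef B (m + 1 + 1) = Bef B (m + 1) ∪ B (m + 1) := by
      ext v
      constructor
      · rintro ⟨s, hs, hv⟩
        by_cases h : s = m + 1
        · right
          rwa [h] at hv
        · left
          exact ⟨s, by omega, hv⟩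
      · rintro (⟨s, hs, hv⟩ | hv)
        · exact ⟨s, by omega, hv⟩
        · exact ⟨m + 1, by omega, hv⟩
    rw [h3]
    refine RootedOn.cat (S := Adh B (m + 1)) ?_ (h.clique _ hm) (h.card _ hm) ?_ h1 h2
    · ext v
      constructor
      · rintro ⟨a, b⟩; exact ⟨b, a⟩
      · rintro ⟨a, b⟩; exact ⟨b, a⟩
    · intro u hu hu' v hv hv' huv
      exact h.sep _ hm v u hv hv' hu hu' huv.symm

/-- **Refinement of a clique sum.** -/
theorem refine_sum [Nonempty V] {H : SimpleGraph V} {n : ℕ} {B : ℕ → Set V} (h : Glued k H n B)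
    (hp : ∀ t < n, RootedOn k P H (B t) (Adh B t)) :
    ∃ H' : SimpleGraph V, H ≤ H' ∧ CliqueSum k P H' := by
  obtain ⟨v⟩ := ‹Nonempty V›
  obtain ⟨t, ht, _⟩ := h.cover v
  obtain ⟨m, rfl⟩ : ∃ m, n = m + 1 := ⟨n - 1, by omega⟩
  have h1 := bef_rooted h hp m (by omega)
  have h2 : Bef B (m + 1) = Set.univ := by
    ext v
    refine ⟨fun _ => trivial, fun _ => ?_⟩
    obtain ⟨s, hs, hv⟩ := h.cover v
    exact ⟨s, hs, hv⟩
  rw [h2] at h1
  obtain ⟨H', n', B', g⟩ := h1
  refine ⟨H', fun u v huv => g.le u trivial v trivial huv, n', B',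
    ⟨fun v => g.cover v trivial, g.card, g.clique, g.sep⟩, fun t ht => ?_⟩
  rcases Nat.eq_zero_or_pos t with h0 | h0
  · subst h0
    have : {x : B' 0 | (x : V) ∈ Adh B' 0} = {x : B' 0 | (x : V) ∈ (∅ : Set V)} := by
      ext x
      constructor
      · rintro ⟨_, s, hs, _⟩; omega
      · intro h; exact h.elim
    rw [this]
    exact g.piece0
  · exact g.piece t h0 ht

/-- `GluePiece1` of `K5/H477/Sum.lean` -/
def GP1 (C : ℝ) (V : Type) (G : SimpleGraph V) (R : Set V) : Prop :=
  G.Connected ∧ ((R.ncard ≤ 1 ∧ DistortionLE G C) ∨ (R.ncard ≤ 2 ∧ EdgeIso G C) ∨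
    ¬ IsMinor K33 (capG G R))

/-- A piece `G` with the clique `R` along which it is glued on.  It is connected, and it has no
`K_5` minor (`R` arbitrary); or `G` with a new vertex joined to `R` has no `K_{3,3}` minor; or `R`
has at most two vertices and `G` is `EdgeIso` with constant `C`; or `R` has at most one vertex and
`c₁(G) ≤ C`. -/
def GluePiece (C : ℝ) (V : Type) (G : SimpleGraph V) (R : Set V) : Prop :=
  G.Connected ∧ (¬ IsMinor (⊤ : SimpleGraph (Fin 5)) G ∨ ¬ IsMinor K33 (capG G R) ∨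
    (R.ncard ≤ 2 ∧ EdgeIso G C) ∨ (R.ncard ≤ 1 ∧ DistortionLE G C))

/-- **[MIXSUM]** from Wagner's step and the theorem on sums. -/
theorem mix_of (hW : WIn)
    (hS : ∀ C : ℝ, ∃ K : ℝ, ∀ (V : Type) [Finite V] (G H : SimpleGraph V), G ≤ H →
      G.Connected → CliqueSum 3 (GP1 C) H → DistortionLE G K) :
    ∀ C : ℝ, ∃ K : ℝ, ∀ (V : Type) [Finite V] (G H : SimpleGraph V), G ≤ H →
      G.Connected → CliqueSum 3 (GluePiece C) H → DistortionLE G K := by
  intro C
  obtain ⟨c, hc, hc1, hsm⟩ := H439.small_edgeExact 7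
  obtain ⟨K, hK⟩ := hS (max C (1 / c))
  refine ⟨K, fun V _ G H hGH hG h => ?_⟩
  have := hG.nonempty
  obtain ⟨n, B, hB, hp⟩ := h
  obtain ⟨H', hHH', hH'⟩ := refine_sum (P := GP1 (max C (1 / c))) hB fun t ht => by
    have hsub : Adh B t ⊆ B t := fun v hv => hv.1
    obtain ⟨hc', h | h | ⟨hR, h⟩ | ⟨hR, h⟩⟩ := hp t ht
    · refine rooted_imp (P := PW) (RootedOn.of_induce isoInv hsub (rooted_of hW _ (B t)
        (H.induce (B t)) {x | (x : V) ∈ Adh B t} (Nat.lt_succ_self _) hc' h ?_ ?_)) ?_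
      · intro u hu v hv huv
        exact hB.clique t ht u hu v hv fun e => huv (Subtype.ext e)
      · exact (ncard_sub (B t) (Adh B t)).trans (hB.card t ht)
      · rintro W K T ⟨h1, h2 | ⟨h8, hT⟩⟩
        · exact ⟨h1, Or.inr (Or.inr h2)⟩
        · exact ⟨h1, Or.inr (Or.inl ⟨hT, ST.H626.EdgeIso.mono'
            ((hsm W K (by omega)).edgeIso hc h1) (le_max_right _ _)⟩)⟩
    · exact RootedOn.single hsub ⟨hc', Or.inr (Or.inr h)⟩
    · exact RootedOn.single hsub ⟨hc', Or.inr (Or.inl ⟨hR, ST.H626.EdgeIso.mono' h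
        (le_max_left _ _)⟩)⟩
    · exact RootedOn.single hsub ⟨hc', Or.inl ⟨hR, h.mono (le_max_left _ _)⟩⟩
  exact hK V G H' (hGH.trans hHH') hG hH'

end Vale.Agent.P235.K5.H266
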