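import Vale.Agent.P235.K5.H266.Last
import Vale.Agent.P235.K5.SX.Asm

set_option autoImplicit false
set_option linter.all false

/-!
# Sums over at most three vertices of pieces of bounded treewidth and pieces without a `K_5` minor
(helper266): reduction to the class `SX.Sum3`
-/

namespace Vale.Agent.P235.K5.H266

open SimpleGraph hiding Free
open Vale.Agent.P235 Vale.Agent.P235.K5 Vale.Agent.P235.H134 Vale.Agent.P235.H56
open Vale.Agent.P235.K5.H281
open Vale.Agent.P235.H341W (capG)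

/-- A piece `G` with the clique `R` along which it is glued on: `G` has treewidth at most `w`, or
`G` has no `K_5` minor (`R` arbitrary), or `G` with a new vertex joined to `R` has no `K_{3,3}`
minor, or `R` has at most two vertices and `G` is `EdgeIso` with constant `C`. -/
def SumPiece (w : ℕ) (C : ℝ) (V : Type) (G : SimpleGraph V) (R : Set V) : Prop :=
  TreewidthLE G w ∨ ¬ IsMinor (⊤ : SimpleGraph (Fin 5)) G ∨ ¬ IsMinor K33 (capG G R) ∨
    (R.ncard ≤ 2 ∧ EdgeIso G C)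

theorem minor_cap' {V : Type} (G : SimpleGraph V) (R : Set V) : IsMinor G (capG G R) := by
  refine ⟨fun v => {some v}, fun v => conn_single (capG G R) (some v), fun a b hab => ?_,
    fun a b hab => ?_⟩
  · rw [Set.disjoint_singleton]
    exact fun h => hab (Option.some_injective _ h)
  · exact ⟨some a, rfl, some b, rfl, hab⟩

theorem sum3_k5 (hW : WIn) {C0 : ℝ} (hC0 : 1 ≤ C0)
    (h0 : ∀ (V : Type) [Finite V] (G : SimpleGraph V), G.Connected → ¬ IsMinor K33 G →
      EdgeIso G C0) (w : ℕ) (C : ℝ) :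
    ∃ c : ℝ, 0 < c ∧ c ≤ 1 ∧ ∀ (V : Type) [Finite V] (H : SimpleGraph V), H.Connected →
      CliqueSum 3 (SumPiece w C) H → ∃ H' : SimpleGraph V, H ≤ H' ∧ SX.Sum3 w c H' := by
  obtain ⟨c8, hc8, hc81, hsm⟩ := H439.small_edgeExact 7
  obtain ⟨M, hM⟩ : ∃ M : ℝ, M = max C C0 := ⟨_, rfl⟩
  have hM0 : C0 ≤ M := by rw [hM]; exact le_max_right _ _
  have hMC : C ≤ M := by rw [hM]; exact le_max_left _ _
  have hMp : 0 < M := by linarith
  have hE : ∀ (V : Type) [Finite V] (G : SimpleGraph V), EdgeIso G M →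
      EdgeExact G (min c8 (1 / M)) := fun V _ G h =>
    (EdgeIso.edgeExact hMp fun _ => h).mono (min_le_right _ _)
  refine ⟨min c8 (1 / M), lt_min hc8 (by positivity), (min_le_left _ _).trans hc81,
    fun V _ H hH h => ?_⟩
  obtain ⟨n, B, hB, hp⟩ := h
  have hQ : ∀ (A : Set V) (K : SimpleGraph A) (T : Set A), PW A K T →
      TreewidthLE K w ∨ H500.PC (min c8 (1 / M)) A K T := by
    rintro A K T ⟨h1, h2 | ⟨h8, hT⟩⟩
    · exact Or.inr ⟨h1, hE A K (ST.H626.EdgeIso.mono' (h0 A K h1 fun h33 =>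
        h2 (minor_trans h33 (minor_cap' _ _))) hM0), fun _ => h2⟩
    · exact Or.inr ⟨h1, (hsm A K (by omega)).mono (min_le_left _ _), fun h3 => by omega⟩
  obtain ⟨H', hHH', hH'⟩ := k5_glued hW hH hB
    (Q := fun V G R => TreewidthLE G w ∨ H500.PC (min c8 (1 / M)) V G R) hQ fun t ht => by
      rcases hp t ht with h | h | h | ⟨hR, h⟩
      · exact Or.inl fun _ => Or.inl h
      · exact Or.inr h
      · exact Or.inl fun hc => Or.inr ⟨hc, hE _ _ (ST.H626.EdgeIso.mono' (h0 _ _ hc fun h33 =>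
          h (minor_trans h33 (minor_cap' _ _))) hM0), fun _ => h⟩
      · exact Or.inl fun hc => Or.inr ⟨hc, hE _ _ (ST.H626.EdgeIso.mono' h hMC),
          fun h3 => by omega⟩
  exact ⟨H', hHH', hH'⟩

/-- **All sums over at most three vertices**, from line SX. -/
theorem sumW_of (hW : WIn) {C0 : ℝ} (hC0 : 1 ≤ C0)
    (h0 : ∀ (V : Type) [Finite V] (G : SimpleGraph V), G.Connected → ¬ IsMinor K33 G →
      EdgeIso G C0)
    (hS : ∀ (w : ℕ) (c : ℝ), 0 < c → c ≤ 1 → ∃ K : ℝ, 1 ≤ K ∧ ∀ (V : Type) [Finite V]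
      (G H : SimpleGraph V), G ≤ H → G.Connected → SX.Sum3 w c H → DistortionLE G K) :
    ∀ (w : ℕ) (C : ℝ), ∃ K : ℝ, 1 ≤ K ∧ ∀ (V : Type) [Finite V] (G H : SimpleGraph V), G ≤ H →
      G.Connected → CliqueSum 3 (SumPiece w C) H → DistortionLE G K := by
  intro w C
  obtain ⟨c, hc, hc1, h⟩ := sum3_k5 hW hC0 h0 w C
  obtain ⟨K, hK1, hK⟩ := hS w c hc hc1
  refine ⟨K, hK1, fun V _ G H hGH hG hsum => ?_⟩
  obtain ⟨H', hHH', hH'⟩ := h V H (hG.mono hGH) hsum
  exact hK V G H' (hGH.trans hHH') hG hH'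

end Vale.Agent.P235.K5.H266
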