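import Vale.Agent.P235.K5.H266.Conn
import Vale.Agent.P235.ST.H626.Sums

set_option autoImplicit false
set_option linter.all false

/-!
# The edge sums of a class are closed under gluing along edges (helper266)
-/

namespace Vale.Agent.P235.K5.H266

open SimpleGraph hiding Free
open Vale.Agent.P235 Vale.Agent.P235.K5 Vale.Agent.P235.ST.H626

variable {P : ∀ V : Type, SimpleGraph V → Prop}

/-- closed under isomorphism -/
def IsoClosed (P : ∀ V : Type, SimpleGraph V → Prop) : Prop :=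
  ∀ (V W : Type) (G : SimpleGraph V) (H : SimpleGraph W), Nonempty (G ≃g H) → P V G → P W H

/-- an isomorphism on an induced subgraph -/
def indIso {V W : Type} {G : SimpleGraph V} {H : SimpleGraph W} (e : G ≃g H) (A : Set V) :
    G.induce A ≃g H.induce (e '' A) where
  toEquiv := e.toEquiv.image A
  map_rel_iff' := by
    intro a b
    exact e.map_adj_iff

theorem edgeSum_iso (hP : IsoClosed P) {V : Type} {G : SimpleGraph V} (h : EdgeSumOf P G) :
    ∀ (W : Type) (H : SimpleGraph W), (G ≃g H) → EdgeSumOf P H := by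
  induction h with
  | base h =>
    intro W H e
    exact EdgeSumOf.base (hP _ _ _ _ ⟨e⟩ h)
  | @del V G G' _ hle ih =>
    intro W H e
    have h1 := ih W (G.map e.toEquiv.toEmbedding) (SimpleGraph.Iso.map e.toEquiv G)
    refine EdgeSumOf.del h1 fun u v huv => ?_
    rw [SimpleGraph.map_adj]
    refine ⟨e.symm u, e.symm v, hle (e.symm.map_adj_iff.2 huv), ?_, ?_⟩
    · exact e.toEquiv.apply_symm_apply u
    · exact e.toEquiv.apply_symm_apply v
  | @glue V G A B s t hst hAB hI hno _ _ ihA ihB =>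
    intro W H e
    refine EdgeSumOf.glue (A := e '' A) (B := e '' B) (s := e s) (t := e t)
      (e.map_adj_iff.2 hst) ?_ ?_ ?_ (ihA _ _ (indIso e A)) (ihB _ _ (indIso e B))
    · rw [← Set.image_union, hAB, Set.image_univ]
      exact e.surjective.range_eq
    · rw [← Set.image_inter e.injective, hI, Set.image_pair]
    · intro x y hx hy hxy
      refine hno (e.symm x) (e.symm y) (fun h => hx ⟨_, h, e.apply_symm_apply x⟩)
        (fun h => hy ⟨_, h, e.apply_symm_apply y⟩) (e.symm.map_adj_iff.2 hxy)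

/-- **The connected edge sums of the members of `P` are closed under gluing along edges.** -/
theorem edgeSum_glueClosed (hP : IsoClosed P) :
    GlueClosed (fun V G => G.Connected ∧ EdgeSumOf P G) := by
  rintro V W _ _ G H a b s t hab hst ⟨hG, hG'⟩ ⟨hH, hH'⟩
  refine ⟨gg_connected hG hH hab hst, ?_⟩
  have g := glued hab hst
  obtain ⟨K, hK⟩ : ∃ K, K = GG G H a b s t := ⟨_, rfl⟩
  have e1 : ∀ x y : V, K.Adj (Sum.inl x) (Sum.inl y) ↔ G.Adj x y := by
    intro x y
    rw [hK]
    refine ⟨fun h => ?_, fun h => g.adjA x y h⟩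
    rcases g.adj _ _ h with ⟨u, v, huv, h1, h2⟩ | ⟨u, v, huv, h1, h2⟩
    · rwa [← g.injA h1, ← g.injA h2]
    · rcases g.inter x u h1.symm with ⟨rfl, rfl⟩ | ⟨rfl, rfl⟩ <;>
        rcases g.inter y v h2.symm with ⟨rfl, rfl⟩ | ⟨rfl, rfl⟩
      · exact absurd huv (H.irrefl)
      · exact hab
      · exact hab.symm
      · exact absurd huv (H.irrefl)
  have e2 : ∀ x y : W, K.Adj (i2 a b s t x) (i2 a b s t y) ↔ H.Adj x y := by
    intro x y
    rw [hK]
    refine ⟨fun h => ?_, fun h => g.adjB x y h⟩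
    rcases g.adj _ _ h with ⟨u, v, huv, h1, h2⟩ | ⟨u, v, huv, h1, h2⟩
    · rcases g.inter u x h1 with ⟨rfl, rfl⟩ | ⟨rfl, rfl⟩ <;>
        rcases g.inter v y h2 with ⟨rfl, rfl⟩ | ⟨rfl, rfl⟩
      · exact absurd huv (G.irrefl)
      · exact hst
      · exact hst.symm
      · exact absurd huv (G.irrefl)
    · rwa [← g.injB h1, ← g.injB h2]
  have i1 : G ≃g K.induce (Set.range (Sum.inl : V → GV V s t)) :=
    { toEquiv := Equiv.ofInjective _ g.injA
      map_rel_iff' := by
        intro x y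
        exact e1 x y }
  have i3 : H ≃g K.induce (Set.range (i2 a b s t)) :=
    { toEquiv := Equiv.ofInjective _ g.injB
      map_rel_iff' := by
        intro x y
        exact e2 x y }
  have h1 := edgeSum_iso hP hG' _ _ i1
  have h2 := edgeSum_iso hP hH' _ _ i3
  rw [← hK]
  refine EdgeSumOf.glue (A := Set.range (Sum.inl : V → GV V s t)) (B := Set.range (i2 a b s t))
    (s := Sum.inl a) (t := Sum.inl b) ((e1 a b).2 hab) ?_ ?_ ?_ h1 h2
  · refine Set.eq_univ_of_forall fun v => ?_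
    rcases g.cov v with ⟨x, hx⟩ | ⟨x, hx⟩
    · exact Or.inl ⟨x, hx⟩
    · exact Or.inr ⟨x, hx⟩
  · ext v
    constructor
    · rintro ⟨⟨x, rfl⟩, y, hy⟩
      rcases g.inter x y hy.symm with ⟨rfl, _⟩ | ⟨rfl, _⟩
      · exact Or.inl rfl
      · exact Or.inr rfl
    · rintro (h | h)
      · rw [h]
        exact ⟨⟨a, rfl⟩, s, g.hs.symm⟩
      · rw [h]
        exact ⟨⟨b, rfl⟩, t, g.ht.symm⟩
  · intro u v hu hv huv
    rw [hK] at huv
    rcases g.adj _ _ huv with ⟨x, y, _, _, h⟩ | ⟨x, y, _, h, _⟩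
    · exact hv ⟨y, h⟩
    · exact hu ⟨x, h⟩

/-- **From edge sums to sums over at most three vertices**: input `H719.edgeIso_glueClosed_sum`. -/
theorem two_three_of
    (hE : ∀ C : ℝ, 1 ≤ C → ∃ K : ℝ, 1 ≤ K ∧ ∀ Q : ∀ V : Type, SimpleGraph V → Prop,
      GlueClosed Q → (∀ (V : Type) (G : SimpleGraph V), Q V G → G.Connected) →
      (∀ (V : Type) [Finite V] (G : SimpleGraph V), Q V G → DistortionLE G C) →
      ∀ (V : Type) [Finite V] (G H : SimpleGraph V), G ≤ H → G.Connected →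
        CliqueSum 3 (fun V G _ => Q V G) H → EdgeIso G K ∧ DistortionLE G K)
    (C : ℝ) (hC : 1 ≤ C) :
    ∃ K : ℝ, 1 ≤ K ∧ ∀ P : ∀ V : Type, SimpleGraph V → Prop, IsoClosed P →
      (∀ (V : Type) [Finite V] (G : SimpleGraph V), G.Connected → EdgeSumOf P G →
        DistortionLE G C) →
      ∀ (V : Type) [Finite V] (G H : SimpleGraph V), G ≤ H → G.Connected →
        CliqueSum 3 (fun V G _ => P V G) H → EdgeIso G K ∧ DistortionLE G K := by
  obtain ⟨K, hK1, hK⟩ := hE C hC
  refine ⟨K, hK1, fun P hP h V _ G H hGH hG hS => ?_⟩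
  refine hK (fun V G => G.Connected ∧ EdgeSumOf P G) (edgeSum_glueClosed hP)
    (fun V G h => h.1) (fun V _ G hQ => h V G hQ.1 hQ.2) V G H hGH hG ?_
  obtain ⟨n, B, g, hB⟩ := cliqueSum_conn (hG.mono hGH).preconnected hS
  exact ⟨n, B, g, fun t ht => ⟨(hB t ht).1, EdgeSumOf.base (hB t ht).2⟩⟩

end Vale.Agent.P235.K5.H266
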