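import Vale.Agent.P235.K5.H266.TT
import Vale.Agent.P235.K5.EX.H719.All

set_option autoImplicit false

/-!
# Bounded `c₁` on the edge sums of a class implies bounded `c₁` on its sums over cliques with at most
three vertices (helper266, on line EX)
-/

namespace Vale.Agent.P235.K5.H266

open SimpleGraph hiding Free
open Vale.Agent.P235 Vale.Agent.P235.K5

/-- If `c₁ ≤ C` on all connected graphs which arise from members of `P` by gluing along edges and
deleting edges, then all connected subgraphs of sums of members of `P` along cliques with at most
three vertices are `EdgeIso K` and have `c₁ ≤ K`, `K` depending only on `C`. -/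
theorem two_three (C : ℝ) (hC : 1 ≤ C) :
    ∃ K : ℝ, 1 ≤ K ∧ ∀ P : ∀ V : Type, SimpleGraph V → Prop, IsoClosed P →
      (∀ (V : Type) [Finite V] (G : SimpleGraph V), G.Connected → EdgeSumOf P G →
        DistortionLE G C) →
      ∀ (V : Type) [Finite V] (G H : SimpleGraph V), G ≤ H → G.Connected →
        CliqueSum 3 (fun V G _ => P V G) H → EdgeIso G K ∧ DistortionLE G K :=
  two_three_of EX.H719.edgeIso_glueClosed_sum C hC

end Vale.Agent.P235.K5.H266
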